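import Vale.Agent.P049.TS.Asm.Rts

/-!
The robust form of the algorithm of `TS`: besides the Ramanujan graph the machine outputs a
partial graph `H` with at least `n ^ (1/3)` missing edges such that every `d`-regular graph which
contains `H` is a Ramanujan graph.
-/

open Function Vale.Agent.Lib.PolyTime

set_option exponentiation.threshold 3000

namespace Vale.Agent.P049.TS

/-- the bits of the adjacency matrix of the partial graph, before the completion -/
def partBits (V : List ℕ → ℤ → St → ℤ) (K : List ℕ → ℕ) (d c n : ℕ) : List Bool :=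
  outB d (List.range n) (run V d c (List.range (n * d)) (K (List.range (n * d)))).2.2

theorem pt_partBits {A : Set Word} {V : List ℕ → ℤ → St → ℤ} {K : List ℕ → ℕ}
    (hV : PT A (fun p : List ℕ × ℤ × St => V p.1 p.2.1 p.2.2))
    (hK : PT A K) (hKb : PBd K) (d c : ℕ) :
    PT A (fun u : Un => Raw.mk (partBits V K d c u.v)) := by
  have hn : PT A (fun u : Un => List.range u.v) :=
    PT.range (PT.unVal PT.id) (PBd.unVal (A := A) PT.id)
  have hR : PT A (fun u : Un => List.range (u.v * d)) :=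
    PT.range ((PT.unVal PT.id).mul (PT.const d)) ((PBd.unVal (A := A) PT.id).mul (PBd.const d))
  have hrun : PT A (fun u : Un => run V d c (List.range (u.v * d)) (K (List.range (u.v * d)))) :=
    pt_run hV d c hR (hK.comp hR) (hKb.comp hR)
  exact PT.rawOfList (pt_outB d hn hrun.snd.snd)

theorem exists_tm2_partBits {V : List ℕ → ℤ → St → ℤ} {K : List ℕ → ℕ}
    (hV : PT ∅ (fun p : List ℕ × ℤ × St => V p.1 p.2.1 p.2.2))
    (hK : PT ∅ K) (hKb : PBd K) (d c : ℕ) :
    ∃ M : Turing.TM2ComputableInPolyTime (fun n : ℕ => List.replicate n true)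
      (id : List Bool → List Bool) (partBits V K d c), ∀ k, Finite (M.tm.Γ k) := by
  obtain ⟨g, hg, h⟩ := pt_partBits hV hK hKb d c
  exact exists_tm2_of_polyTimeFun _ _ (partBits V K d c) g (polyTimeFun_iff.2 hg) fun n => h ⟨n⟩

theorem sum_countP_div {n d : ℕ} (F : List ℕ) (hF : ∀ i ∈ F, i < n * d) :
    ∑ u : Fin n, F.countP (fun i => decide (i / d = u.val)) = F.length := by
  induction F with
  | nil => simp
  | cons a F ih =>
    have h1 := ih fun i hi => hF i (List.mem_cons_of_mem _ hi)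
    have h2 : a / d < n := Nat.div_lt_of_lt_mul (by
      have := hF a List.mem_cons_self
      rwa [mul_comm] at this)
    simp only [List.countP_cons, Finset.sum_add_distrib, h1, List.length_cons]
    congr 1
    rw [Finset.sum_eq_single (⟨a / d, h2⟩ : Fin n)]
    · simp
    · intro b _ hb
      rw [if_neg]
      simp only [decide_eq_true_eq]
      intro h
      exact hb (Fin.ext h.symm)
    · intro h
      exact absurd (Finset.mem_univ _) h

/-- The number of edges of the graph of a partial pairing. -/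
theorem two_mul_card_grE {n d : ℕ} (hd : 0 < d) {F : List ℕ} {E : List (ℕ × ℕ)}
    (h : CInv n d F E) [DecidableRel (grE n d E).Adj] :
    2 * (grE n d E).edgeFinset.card + F.length = n * d := by
  rw [← SimpleGraph.sum_degrees_eq_twice_card_edges, ← sum_countP_div (n := n) (d := d) F,
    ← Finset.sum_add_distrib, Finset.sum_congr rfl fun u _ => grE_degree hd h u]
  · simp
  · intro i hi
    exact List.mem_range.1 (h.perm.mem_iff.1 (List.mem_append_left _ hi))

/-- The conclusion of the robust form. -/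
def RobustC (d : ℕ) : Prop :=
  ∃ f h : ℕ → List Bool,
    (∃ M : Turing.TM2ComputableInPolyTime (fun n : ℕ => List.replicate n true)
      (id : List Bool → List Bool) f, ∀ k, Finite (M.tm.Γ k)) ∧
    (∃ M : Turing.TM2ComputableInPolyTime (fun n : ℕ => List.replicate n true)
      (id : List Bool → List Bool) h, ∀ k, Finite (M.tm.Γ k)) ∧
    ∃ n₁ : ℕ, ∀ n : ℕ, n₁ ≤ n → Even (d * n) →
      ∃ (G H : SimpleGraph (Fin n)) (_ : DecidableRel G.Adj) (_ : DecidableRel H.Adj),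
        G.IsRegularOfDegree d ∧ H ≤ G ∧
        n ≤ (G.edgeFinset.card - H.edgeFinset.card) ^ 3 ∧
        f n = (List.ofFn fun i : Fin n => List.ofFn fun j : Fin n =>
          decide (G.Adj i j)).flatten ∧
        h n = (List.ofFn fun i : Fin n => List.ofFn fun j : Fin n =>
          decide (H.Adj i j)).flatten ∧
        ∀ (G' : SimpleGraph (Fin n)) [DecidableRel G'.Adj], G'.IsRegularOfDegree d → H ≤ G' →
          IsRamanujanUpTo d 0 G'

/-- The output of the algorithm, with the partial graph. -/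
theorem alg_correctR {n d c K : ℕ} {V : List ℕ → ℤ → St → ℤ} {Kf : List ℕ → ℕ} {W : ℕ → ℝ}
    {Φ : ℕ → RSt (Fin (n * d)) → ℝ} {b : ℕ → ℝ} (hd : 3 ≤ d) (hn : 0 < n) (hc : 0 < c)
    (hcm : 12 * c ≤ n * d)
    (hm : 1 + 208 * (c : ℝ) ^ 2 * (((n * d : ℕ) : ℝ) + 1) ^ 4 ≤ 2 ^ (n * d))
    (hKf : Kf (List.range (n * d)) = K)
    (hK : 2 * K + 8 * d ^ 2 ≤ n * d) (he : Even (d * n)) (G : Good n d c K V W Φ b) :
    ∃ σ, Reach (vertF n d) (start (vertF n d) d) K σ ∧
      Φ K σ ≤ b K + (1 / 2) ^ (n * d) ∧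
      ∃ (G H : SimpleGraph (Fin n)) (_ : DecidableRel G.Adj) (_ : DecidableRel H.Adj),
        G.IsRegularOfDegree d ∧ H ≤ G ∧
        2 * G.edgeFinset.card = n * d ∧ 2 * H.edgeFinset.card = 2 * K ∧
        (∀ e ∈ σ.E, H.Adj (vertF n d e.1) (vertF n d e.2)) ∧
        allBits V Kf d c n = (List.ofFn fun i : Fin n => List.ofFn fun j : Fin n =>
            decide (G.Adj i j)).flatten ∧
        partBits V Kf d c n = (List.ofFn fun i : Fin n => List.ofFn fun j : Fin n =>
            decide (H.Adj i j)).flatten := by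
  obtain ⟨σ, h1, h2, h3⟩ := run_correct hd hn hc hcm hm (by omega) G
  have hcard := h1.base.2.2.2
  rw [Fintype.card_fin] at hcard
  have hlen := h3.length
  have hev : Even (run V d c (List.range (n * d)) K).1.length := by
    rw [hlen]
    rw [mul_comm d n] at he
    obtain ⟨r, hr⟩ := he
    exact ⟨r - K, by omega⟩
  obtain ⟨g1, g2⟩ := comp_correct hd h3.cinv hev (by omega)
  classical
  refine ⟨σ, h1, h2, grE n d (comp d (run V d c (List.range (n * d)) K).1
    (run V d c (List.range (n * d)) K).2.2), grE n d (run V d c (List.range (n * d)) K).2.2,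
    inferInstance, inferInstance, grE_regular (by omega) g1, grE_mono g2, ?_, ?_,
    fun e he' => ?_, ?_, ?_⟩
  · have := two_mul_card_grE (by omega) g1
    simpa using this
  · have := two_mul_card_grE (by omega) h3.cinv
    omega
  · rw [grE_adj h3.cinv.simp.1]
    refine ⟨(e.1.val, e.2.val), ?_, rfl⟩
    rw [h3.edges]
    exact List.mem_map.2 ⟨e, he', rfl⟩
  · unfold allBits
    rw [hKf]
    exact outB_eq g1.simp.1
  · unfold partBits
    rw [hKf]
    exact outB_eq h3.cinv.simp.1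

/-- The final reduction, robust form. -/
theorem main_of_goodR {d c n₀ : ℕ} (hd : 3 ≤ d) (hc : 0 < c) {V : List ℕ → ℤ → St → ℤ}
    {K : List ℕ → ℕ} (hV : PT ∅ (fun p : List ℕ × ℤ × St => V p.1 p.2.1 p.2.2))
    (hK : PT ∅ K) (hKb : PBd K) (W : ℕ → ℕ → ℝ) (Φ : ∀ n, ℕ → RSt (Fin (n * d)) → ℝ)
    (b : ℕ → ℕ → ℝ)
    (hG : ∀ n ≥ n₀, Even (d * n) →
      Good n d c (K (List.range (n * d))) V (W n) (Φ n) (b n))
    (hK2 : ∀ n ≥ n₀, 2 * K (List.range (n * d)) + 8 * d ^ 2 ≤ n * d)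
    (hK3 : ∀ n ≥ n₀, n ≤ ((n * d - 2 * K (List.range (n * d))) / 2) ^ 3)
    (hfin : ∀ n ≥ n₀, Even (d * n) → ∀ σ,
      Reach (vertF n d) (start (vertF n d) d) (K (List.range (n * d))) σ →
      Φ n (K (List.range (n * d))) σ ≤ b n (K (List.range (n * d))) + (1 / 2) ^ (n * d) →
      ∀ (G : SimpleGraph (Fin n)) [DecidableRel G.Adj], G.IsRegularOfDegree d →
        (∀ e ∈ σ.E, G.Adj (vertF n d e.1) (vertF n d e.2)) → IsRamanujanUpTo d 0 G) :
    RobustC d := by
  refine ⟨allBits V K d c, partBits V K d c, exists_tm2_allBits hV hK hKb d c,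
    exists_tm2_partBits hV hK hKb d c, ?_⟩
  obtain ⟨m₁, hm₁⟩ := num7 c
  refine ⟨n₀ + m₁ + 12 * c + 1, fun n hn he => ?_⟩
  have hnd : n ≤ n * d := Nat.le_mul_of_pos_right _ (by omega)
  obtain ⟨σ, h1, h2, G, H, hG', hH', h3, h4, h5, h6, h7, h8, h9⟩ := alg_correctR hd (by omega) hc
    (by omega) (hm₁ (n * d) (by omega)) rfl (hK2 n (by omega)) he (hG n (by omega) he)
  refine ⟨G, H, hG', hH', h3, h4, ?_, h8, h9, fun G' _ hr hH => ?_⟩
  · refine (hK3 n (by omega)).trans (Nat.pow_le_pow_left ?_ 3)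
    omega
  · exact hfin n (by omega) he σ h1 h2 G' hr fun e he' => hH (h7 e he')

/-- `n ≤ (sR n ^ 341 / 2) ^ 3` for large `n`. -/
theorem sR_cube {n : ℕ} (hs : 2 ^ 60 ≤ sR n) {a : ℕ} (ha : sR n ^ 341 ≤ a) :
    n ≤ (a / 2) ^ 3 := by
  have h1 : n < (sR n + 1) ^ 1000 := by
    by_contra h
    push Not at h
    have := (le_sR_iff n (sR n + 1)).2 h
    omega
  set s := sR n with hs'
  have hs1 : 1 ≤ s := le_trans (by norm_num) hs
  have h2 : (s + 1) ^ 1000 ≤ 2 ^ 1000 * s ^ 1000 := by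
    rw [← mul_pow]
    exact Nat.pow_le_pow_left (by omega) _
  have h3 : s ^ 341 ≤ 4 * (a / 2) := by
    have h4 : 1 ≤ s ^ 341 := Nat.one_le_pow _ _ hs1
    have h5 : 2 ≤ s ^ 341 := le_trans (by omega : 2 ≤ s) (Nat.le_self_pow (by norm_num) _)
    omega
  have h4 : (2 ^ 1000 * s ^ 1000) * 64 ≤ 64 * (a / 2) ^ 3 := by
    calc (2 ^ 1000 * s ^ 1000) * 64 = 2 ^ 1006 * s ^ 1000 := by ring
      _ ≤ (2 ^ 60) ^ 23 * s ^ 1000 := by
          refine Nat.mul_le_mul_right _ ?_
          rw [← pow_mul]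
          exact Nat.pow_le_pow_right (by norm_num) (by norm_num)
      _ ≤ s ^ 23 * s ^ 1000 := Nat.mul_le_mul_right _ (Nat.pow_le_pow_left hs _)
      _ = (s ^ 341) ^ 3 := by rw [← pow_add, ← pow_mul]
      _ ≤ (4 * (a / 2)) ^ 3 := Nat.pow_le_pow_left h3 _
      _ = 64 * (a / 2) ^ 3 := by rw [mul_pow]; norm_num
  omega

/-- **The reduction**, robust form. -/
theorem final_UR {d c n₀ k₀ : ℕ} (hd : 3 ≤ d) (hc : 0 < c)
    {U : ℕ → ℤ → ℤ → ℕ → List ℤ × List ℤ × ℤ → ℤ} (hU : PTU U)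
    (Φ : ∀ n, ℕ → RSt (Fin (n * d)) → ℝ) (b : ℕ → ℕ → ℝ)
    (hA : ∀ n ≥ n₀, Even (d * n) → ∀ k < (n * d - sR n ^ 341) / 2, ∀ σ,
      Reach (vertF n d) (start (vertF n d) d) k σ → ∀ δ : ℝ, 0 ≤ δ →
      δ ≤ (1 / 2) ^ (n * d) → Φ n k σ ≤ b n k + δ → ∃ x y, σ.Adm (vertF n d) (2 / c) x y ∧
        Φ n (k + 1) (σ.join x y) ≤ b n (k + 1) + 2 * δ)
    (hB : ∀ n ≥ n₀, Even (d * n) → ∀ k < (n * d - sR n ^ 341) / 2, ∀ σ,
      Reach (vertF n d) (start (vertF n d) d) k σ → Φ n k σ ≤ b n k + (1 / 2) ^ (n * d) →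
        ∀ i j, |σ.Zp i j| ≤ (n * d : ℕ) ∧ |σ.Zm i j| ≤ (n * d : ℕ))
    (hC : ∀ n ≥ n₀, Even (d * n) → Φ n 0 (start (vertF n d) d) ≤ b n 0)
    (hN : ∀ n ≥ n₀, Even (d * n) → ∀ k, 0 < k → k ≤ (n * d - sR n ^ 341) / 2 →
      ∀ (q r : ℤ) (e P : ℝ) (v : List ℤ × List ℤ × ℤ) (σ : RSt (Fin (n * d))),
      NB n d q r e P → Reach (vertF n d) (start (vertF n d) d) k σ →
      ValsOK q e P v.1 σ.F σ.Zp → ValsOK q e P v.2.1 σ.F σ.Zm →
      Nice q e P 28 v.2.2 (σ.Zp ^ 2 * σ.Zm ^ 2).trace →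
      Nice q e P k₀ (U n q r k v) (Φ n k σ))
    (hend : ∀ n ≥ n₀, Even (d * n) → ∀ σ,
      Reach (vertF n d) (start (vertF n d) d) ((n * d - sR n ^ 341) / 2) σ →
      Φ n ((n * d - sR n ^ 341) / 2) σ ≤ b n ((n * d - sR n ^ 341) / 2) + (1 / 2) ^ (n * d) →
      (σ.Zp ^ 2).trace ≤ 2 ∧ (σ.Zm ^ 2).trace ≤ 2) :
    RobustC d := by
  have hsn : ∀ n, sR n ^ 341 ≤ n := by
    intro n
    rcases Nat.eq_zero_or_pos (sR n) with h | h
    · rw [h, zero_pow (by omega)]; exact Nat.zero_le _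
    · exact (Nat.pow_le_pow_right h (by norm_num)).trans (sR_pow_le n)
  have hs8 : ∀ n, (8 * d ^ 2) ^ 1000 ≤ n → 8 * d ^ 2 ≤ sR n ^ 341 := by
    intro n hn
    have h1 : 8 * d ^ 2 ≤ sR n := (le_sR_iff n _).2 hn
    exact h1.trans (Nat.le_self_pow (by omega) _)
  have hnd : ∀ n, n ≤ n * d := fun n => Nat.le_mul_of_pos_right _ (by omega)
  obtain ⟨N, hN60⟩ : ∃ N, ∀ n, N ≤ n → 2 ^ 60 ≤ sR n :=
    ⟨(2 ^ 60) ^ 1000, fun n hn => (le_sR_iff n _).2 hn⟩
  refine main_of_goodR (n₀ := n₀ + (8 * d ^ 2) ^ 1000 + k₀ + 200 + N) hd hc (pt_Vof hU d)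
    (pt_Kst d 341) (pbd_Kst d 341) (fun n _ => (scale (List.range (n * d)) : ℤ)) Φ b ?_ ?_ ?_ ?_
  · intro n hn he
    rw [Kst_range (by omega)]
    have h1 := hnd n
    refine Good.mk' (k₀ := k₀) (by omega) (by omega) (hA n (by omega) he) (hB n (by omega) he)
      (hC n (by omega) he) fun k hk0 hk s σ hr hrel g1 g2 g3 => ?_
    have hl : (List.range (n * d)).length = n * d := List.length_range
    have hlen := hrel.length
    have hcard := hr.base.2.2.2
    rw [Fintype.card_fin] at hcard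
    have hkk : ((List.range (n * d)).length - s.1.length) / 2 = k := by
      rw [hl, hlen]; omega
    unfold Vof
    rw [hkk, hl, Nat.mul_div_cancel _ (by omega : 0 < d)]
    have np := np_run (n := n) (d := d) (by omega)
    have hscale : scale (List.range (n * d)) = 2 ^ bits (List.range (n * d)) := rfl
    have hsm : ((1 : ℝ) / 2) ^ (30 * (n * d + 2) ^ 2) * (((n * d : ℕ) : ℝ) + 2) ^ 200 ≤ 1 / 2 := by
      refine (err_small (k₀ := 200) (by omega)).trans ?_
      calc ((1 : ℝ) / 2) ^ (2 * (n * d)) ≤ (1 / 2) ^ 1 :=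
            pow_le_pow_of_le_one (by norm_num) (by norm_num) (by omega)
        _ = 1 / 2 := pow_one _
    refine hN n (by omega) he k hk0 hk _ _ _ _ _ σ ⟨np, rfl, ⟨?_, ?_⟩, hd, by omega, hsm⟩ hr
      g1 g2 g3
    · obtain ⟨hm, hm1, -⟩ := mu_facts hd
      rw [abs_of_pos hm, pow_zero]
      exact hm1.le
    · rw [pow_zero, mul_one]
      refine le_trans ?_ np.hqe
      have := rootL_close hd (bits (List.range (n * d)))
      rw [hscale]
      push_cast
      exact this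
  · intro n hn
    rw [Kst_range (by omega)]
    have h1 := hnd n
    have h2 := hsn n
    have h3 := hs8 n (by omega)
    omega
  · intro n hn
    rw [Kst_range (by omega)]
    have h1 := hnd n
    have h2 := hsn n
    exact sR_cube (hN60 n (by omega)) (by omega)
  · intro n hn he σ hr hΦ G _ hreg hadj
    rw [Kst_range (by omega)] at hr hΦ
    obtain ⟨h1, h2⟩ := hend n (by omega) he σ hr hΦ
    have h3 := hnd n
    have h4 := hs8 n (by omega)
    have h5 : 0 < 8 * d ^ 2 := by positivity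
    have h6 := hsn n
    exact hr.isRamanujan_vertF hd (by omega) (by omega) h1 h2 G hreg hadj

open Asm (k1 k2 k3 k4 k5 PhiA PhiB PhiC PhiF glue Ev Phase)

/-- **The problem reduced to the four phases**, robust form. -/
theorem final_phasesR {d : ℕ} (hd : 3 ≤ d) {b₁ b₂ b₃ b₄ : ℝ}
    (hk : Ev d fun n => k2 n d ≤ k3 n d ∧ k3 n d ≤ k4 n d ∧ k4 n d ≤ k5 n d)
    (P₁ : Ev d fun n => ∃ r, Phase n d 0 (k2 n d) (fun k σ => PhiA n d k σ) b₁ r)
    (P₂ : Ev d fun n => ∃ r, Phase n d (k2 n d) (k3 n d) (fun k σ => PhiC n d k σ) b₂ r)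
    (P₃ : Ev d fun n => ∃ r, Phase n d (k3 n d) (k4 n d) (fun k σ => PhiB n d k σ) b₃ r)
    (P₄ : Ev d fun n => ∃ r, Phase n d (k4 n d) (k5 n d) (fun k σ => PhiF n d k σ) b₄ r)
    (h₀ : Ev d fun n => PhiA n d 0 (start (vertF n d) d) ≤ b₁)
    (h₁₂ : Ev d fun n => ∀ σ, Reach (vertF n d) (start (vertF n d) d) (k2 n d) σ →
      PhiA n d (k2 n d) σ ≤ 1 → PhiC n d (k2 n d) σ ≤ b₂)
    (h₂₃ : Ev d fun n => ∀ σ, Reach (vertF n d) (start (vertF n d) d) (k3 n d) σ →
      PhiC n d (k3 n d) σ ≤ 1 → PhiB n d (k3 n d) σ ≤ b₃)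
    (h₃₄ : Ev d fun n => ∀ σ, Reach (vertF n d) (start (vertF n d) d) (k4 n d) σ →
      PhiB n d (k4 n d) σ ≤ 1 → PhiF n d (k4 n d) σ ≤ b₄)
    (hfin : Ev d fun n => ∀ σ, Reach (vertF n d) (start (vertF n d) d) (k5 n d) σ →
      PhiF n d (k5 n d) σ ≤ 1 → (σ.Zp ^ 2).trace ≤ 2 ∧ (σ.Zm ^ 2).trace ≤ 2) :
    RobustC d := by
  obtain ⟨n₀, b, hb⟩ := Asm.glue4 (d := d) (fun n k σ => PhiA n d k σ) (fun n k σ => PhiC n d k σ)
    (fun n k σ => PhiB n d k σ) (fun n k σ => PhiF n d k σ) (fun n => k2 n d) (fun n => k3 n d)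
    (fun n => k4 n d) (fun n => k5 n d) (by omega) hk P₁ P₂ P₃ P₄ h₀ h₁₂ h₂₃ h₃₄ hfin
  obtain ⟨n₂, hn₂⟩ := (Ev.of_sR (d := d) 2).exists
  have h0 : ∀ n ≥ n₀ + n₂, Even (d * n) → 2 ≤ sR n := fun n hn he => hn₂ n (by omega) he
  refine final_UR (n₀ := n₀ + n₂) (k₀ := 80) (c := 4) hd (by norm_num)
    (ptU_UU d) (PhiG d) b
    (fun n hn he => (hb n (by omega) he).1) (fun n hn he => (hb n (by omega) he).2.1)
    (fun n hn he => (hb n (by omega) he).2.2.1) ?_
    (fun n hn he => (hb n (by omega) he).2.2.2)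
  intro n hn he k hk0 hk q r e P v σ hNB _ g1 g2 g3
  have hs := h0 n hn he
  have h341 : 1 ≤ sR n ^ 341 := Nat.one_le_pow _ _ (by omega)
  have h802 : 2 ≤ sR n ^ 802 := hs.trans (Nat.le_self_pow (by norm_num) _)
  have h1 := sR_pow_le' (n := n) (by have := hNB.hn; omega) (j := 341) (by norm_num)
  have h2 := sR_pow_le' (n := n) (by have := hNB.hn; omega) (j := 802) (by norm_num)
  have h3 : n ≤ n * d := Nat.le_mul_of_pos_right _ (by omega)
  refine nice_UU hNB (by omega) ?_ g1 g2 g3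
  unfold Asm.k1
  omega

namespace Asm

/-- **The robust form of the final statement.** -/
theorem finalR {d : ℕ} (hd : 3 ≤ d) : RobustC d := by
  obtain ⟨P1, h0⟩ := evPhaseA hd (ratesA hd)
  obtain ⟨s₃, h3⟩ := exists_nat_ge (72 * (d : ℝ) ^ 4)
  refine final_phasesR hd ((Ev.of_sR 2).mono fun n _ h =>
      ⟨k2_le_k3 (by omega), k3_le_k4 (by omega), k4_le_k5 h⟩) P1 (phaseC hd (ratesC hd))
      (evPhaseB hd (ratesB hd)) (phaseF hd) h0 ((Ev.of_sR (max s₃ 2000)).mono fun n _ hσ => ?_)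
      ((Ev.of_sR (max s₃ 2000)).mono fun n _ hσ => ?_)
      ((Ev.of_sR (max s₃ 2000)).mono fun n _ hσ => ?_)
      ((Ev.of_sR (max s₃ 2000)).mono fun n _ hσ => ?_)
  all_goals
    rw [max_le_iff] at hσ
    intro σ hr hP
    have hnp := n_pos_of_sR (n := n) (by omega)
    have : Nonempty (Fin n) := ⟨⟨0, hnp⟩⟩
    have hf := fib_vertF hnp (show 0 < d by omega)
  · exact handA hd hσ.2 hf.fib hf.cardV hr hP
  · have h4 : (s₃ : ℝ) ≤ sR n := by exact_mod_cast hσ.1
    exact handC hd hσ.2 (h3.trans h4) hf.fib hf.cardV hr hP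
  · exact handB hd hσ.2 hf.fib hf.cardV hr hP
  · exact endF_of hd hσ.2 hf.fib hf.cardV hr hP

end Asm

/-- **Robust completions.** For every `d ≥ 3` two Turing machines compute in polynomial time,
for all large `n` with `d n` even, a `d`-regular graph `G` on `n` vertices and a subgraph `H` of
`G` with at least `n ^ (1/3)` edges less such that every `d`-regular graph on the same vertices
which contains `H` (among them `G`) is a Ramanujan graph. -/
theorem robust (d : ℕ) (hd : 3 ≤ d) :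
    ∃ f h : ℕ → List Bool,
      (∃ M : Turing.TM2ComputableInPolyTime (fun n : ℕ => List.replicate n true)
        (id : List Bool → List Bool) f, ∀ k, Finite (M.tm.Γ k)) ∧
      (∃ M : Turing.TM2ComputableInPolyTime (fun n : ℕ => List.replicate n true)
        (id : List Bool → List Bool) h, ∀ k, Finite (M.tm.Γ k)) ∧
      ∃ n₁ : ℕ, ∀ n : ℕ, n₁ ≤ n → Even (d * n) →
        ∃ (G H : SimpleGraph (Fin n)) (_ : DecidableRel G.Adj) (_ : DecidableRel H.Adj),
          G.IsRegularOfDegree d ∧ H ≤ G ∧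
          n ≤ (G.edgeFinset.card - H.edgeFinset.card) ^ 3 ∧
          f n = (List.ofFn fun i : Fin n => List.ofFn fun j : Fin n =>
            decide (G.Adj i j)).flatten ∧
          h n = (List.ofFn fun i : Fin n => List.ofFn fun j : Fin n =>
            decide (H.Adj i j)).flatten ∧
          ∀ (G' : SimpleGraph (Fin n)) [DecidableRel G'.Adj], G'.IsRegularOfDegree d → H ≤ G' →
            IsRamanujanUpTo d 0 G' :=
  Asm.finalR hd

end Vale.Agent.P049.TS
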